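import Mathlib

/-!
Languages of generalized star height at most `n`, as an inductively generated family.
-/

namespace Vale.Agent.P329H

/-- `StarHeightLE n L`: the language `L ⊆ A*` is built from `∅`, `{ε}` and the letters by union,
concatenation, complement (in `A*`) and Kleene star, with at most `n` nested stars. -/
inductive StarHeightLE {A : Type} : ℕ → Language A → Prop
  | empty (n : ℕ) : StarHeightLE n 0
  | eps (n : ℕ) : StarHeightLE n 1
  | letter (n : ℕ) (a : A) : StarHeightLE n {[a]}
  | union {n : ℕ} {K L : Language A} : StarHeightLE n K → StarHeightLE n L →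
      StarHeightLE n (K + L)
  | concat {n : ℕ} {K L : Language A} : StarHeightLE n K → StarHeightLE n L →
      StarHeightLE n (K * L)
  | compl {n : ℕ} {L : Language A} : StarHeightLE n L → StarHeightLE n Lᶜ
  | star {n : ℕ} {L : Language A} : StarHeightLE n L → StarHeightLE (n + 1) (KStar.kstar L)

/-- the normal subgroup of `G` generated by all commutators and all `p`-th powers: the smallest
normal subgroup whose quotient is abelian of exponent dividing `p` -/
def elemKernel (G : Type) [Group G] (p : ℕ) : Subgroup G :=
  Subgroup.normalClosure ({g | ∃ x y : G, g = x * y * x⁻¹ * y⁻¹} ∪ {g | ∃ x : G, g = x ^ p})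

end Vale.Agent.P329H
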