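import Vale.Agent.Lib.P329H.Defs
import Vale.Agent.Lib.P329.Groups

/-!
From generalized regular expressions to the inductive family.
-/

namespace Vale.Agent.P329H

open Vale.Agent.P329

theorem StarHeightLE.mono {A : Type} {n : ℕ} {L : Language A} (h : StarHeightLE n L) :
    ∀ {m : ℕ}, n ≤ m → StarHeightLE m L := by
  induction h with
  | empty n => exact fun {m} _ => .empty m
  | eps n => exact fun {m} _ => .eps m
  | letter n a => exact fun {m} _ => .letter m a
  | union _ _ h1 h2 => exact fun {m} h => .union (h1 h) (h2 h)
  | concat _ _ h1 h2 => exact fun {m} h => .concat (h1 h) (h2 h)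
  | compl _ h1 => exact fun {m} h => .compl (h1 h)
  | star _ h1 =>
    intro m h
    obtain ⟨k, rfl⟩ : ∃ k, m = k + 1 := ⟨m - 1, by omega⟩
    exact .star (h1 (by omega))

theorem of_expr {A : Type} (P : GRE A) : StarHeightLE P.starHeight P.lang := by
  induction P with
  | zero => exact .empty _
  | one => exact .eps _
  | letter a => exact .letter _ a
  | plus P Q h1 h2 => exact .union (h1.mono (le_max_left _ _)) (h2.mono (le_max_right _ _))
  | comp P Q h1 h2 => exact .concat (h1.mono (le_max_left _ _)) (h2.mono (le_max_right _ _))
  | compl P h1 => exact .compl h1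
  | star P h1 => exact .star h1

theorem of_heightLE {A : Type} {n : ℕ} {L : Language A} (h : HeightLE n L) : StarHeightLE n L := by
  obtain ⟨P, rfl, hP⟩ := h
  exact (of_expr P).mono hP

end Vale.Agent.P329H
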